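import Vale.Agent.P022.H116.Spec

/-! Blocks (GL): ramification and Frobenius elements, from Mathlib. -/

namespace Vale.Agent.P022.H691

open NumberField IsDedekindDomain Vale.Agent.P022.CFT
open Vale.Agent.P024.M3 (Unr)

noncomputable section

section

variable (K L : Type) [Field K] [NumberField K] [Field L] [NumberField L] [Algebra K L]

theorem galoisGroup [IsGalois K L] : IsGaloisGroup (L ≃ₐ[K] L) (𝓞 K) (𝓞 L) :=
  IsGaloisGroup.of_isFractionRing _ _ _ K L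

variable {K L}

omit [NumberField K] [NumberField L] in
theorem mem_inertia_iff (P : Ideal (𝓞 L)) (σ : L ≃ₐ[K] L) :
    σ ∈ P.inertia (L ≃ₐ[K] L) ↔ ∀ x : 𝓞 L, ∀ y : 𝓞 L, (y : L) = σ x → y - x ∈ P := by
  constructor
  · intro h x y hy
    have h1 : y = σ • x := RingOfIntegers.ext (by rw [hy]; rfl)
    rw [h1]
    exact h x
  · intro h x
    exact h x (σ • x) rfl

theorem card_inertia [IsGalois K L] (𝔭 : Ideal (𝓞 K)) (P : Ideal (𝓞 L)) [P.LiesOver 𝔭]
    [𝔭.IsPrime] [P.IsPrime] (h𝔭 : 𝔭 ≠ ⊥) :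
    Nat.card (P.inertia (L ≃ₐ[K] L)) = 𝔭.ramificationIdx' P := by
  have := galoisGroup K L
  have : 𝔭.IsMaximal := Ideal.IsPrime.isMaximal ‹_› h𝔭
  have hfin : Finite (𝓞 K ⧸ 𝔭) := Ideal.finiteQuotientOfFreeOfNeBot _ h𝔭
  have : Finite 𝔭.ResidueField :=
    Finite.of_surjective _ 𝔭.bijective_algebraMap_quotient_residueField.surjective
  rw [Ideal.card_inertia_eq_ramificationIdxIn 𝔭 P,
    Ideal.ramificationIdxIn_eq_ramificationIdx 𝔭 P (L ≃ₐ[K] L),
    Ideal.ramificationIdx'_eq_ramificationIdx 𝔭 P h𝔭]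

theorem unr_iff_ramificationIdx (w : HeightOneSpectrum (𝓞 L)) :
    Unr K w ↔ (w.asIdeal.under (𝓞 K)).ramificationIdx' w.asIdeal = 1 := by
  set v : HeightOneSpectrum (𝓞 K) := HeightOneSpectrum.under (𝓞 K) w with hv
  have hvw : v.asIdeal = w.asIdeal.under (𝓞 K) := rfl
  have : w.asIdeal.LiesOver v.asIdeal := ⟨hvw⟩
  have key := fun x : K => HeightOneSpectrum.valuation_liesOver L v w x
  rw [← hvw]
  constructor
  · rintro ⟨x, hx⟩
    rw [← key x] at hx
    have hx0 : v.valuation K x ≠ 0 := by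
      intro h0
      rw [h0] at hx
      by_cases he : v.asIdeal.ramificationIdx' w.asIdeal = 0
      · rw [he, pow_zero] at hx
        have := congrArg WithZero.log hx
        simp at this
      · rw [zero_pow he] at hx
        exact absurd hx.symm WithZero.exp_ne_zero
    have h2 := congrArg WithZero.log hx
    rw [WithZero.log_pow, WithZero.log_exp, nsmul_eq_mul] at h2
    have h3 : ((v.asIdeal.ramificationIdx' w.asIdeal : ℕ) : ℤ) ∣ 1 := by
      rw [← dvd_neg, ← h2]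
      exact Dvd.intro _ rfl
    exact Nat.dvd_one.mp (by exact_mod_cast h3)
  · intro h
    obtain ⟨x, hx⟩ := v.valuation_exists_uniformizer K
    refine ⟨x, ?_⟩
    rw [← key x, h, pow_one, hx]

/-- (GL1) trivial inertia implies ramification index one. -/
theorem propUnr : PropUnr := by
  intro K L _ _ _ _ _ _ w
  set v : HeightOneSpectrum (𝓞 K) := HeightOneSpectrum.under (𝓞 K) w with hv
  have hvw : v.asIdeal = w.asIdeal.under (𝓞 K) := rfl
  have hlo : w.asIdeal.LiesOver v.asIdeal := ⟨hvw⟩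
  rw [unr_iff_ramificationIdx, ← hvw]
  constructor
  · intro h
    rw [← card_inertia v.asIdeal w.asIdeal v.ne_bot, Nat.card_eq_one_iff_unique]
    refine ⟨⟨fun a b => ?_⟩, inferInstance⟩
    have h1 : ∀ c : w.asIdeal.inertia (L ≃ₐ[K] L), c = 1 := fun c =>
      Subtype.ext (h w.asIdeal w.isPrime rfl c.1 ((mem_inertia_iff _ _).mp c.2))
    rw [h1 a, h1 b]
  · intro h P hP hPw σ hσ
    have hlo' : P.LiesOver v.asIdeal := ⟨hPw.symm⟩
    have := galoisGroup K L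
    have h1 : Nat.card (P.inertia (L ≃ₐ[K] L)) = 1 := by
      rw [card_inertia v.asIdeal P v.ne_bot, Ideal.ramificationIdx'_eq_ramificationIdx _ _ v.ne_bot,
        Ideal.ramificationIdx_eq_of_isGaloisGroup v.asIdeal P w.asIdeal (L ≃ₐ[K] L),
        ← Ideal.ramificationIdx'_eq_ramificationIdx v.asIdeal w.asIdeal v.ne_bot, h]
    rw [Nat.card_eq_one_iff_unique] at h1
    have h2 := h1.1.elim ⟨σ, (mem_inertia_iff _ _).mpr hσ⟩ 1
    exact congrArg Subtype.val h2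

/-- (GL2) the residue degree divides the order of Frobenius. -/
theorem propFrob : PropFrob := by
  rintro K L _ _ _ _ _ _ 𝔭 h𝔭 h𝔭0 τ ⟨P, hP, hP𝔭, hfr⟩
  have hlo : P.LiesOver 𝔭 := ⟨hP𝔭.symm⟩
  refine ⟨P, hP, hP𝔭, 𝔭.inertiaDeg' P, ?_,
    Ideal.absNorm_eq_pow_inertiaDeg'_of_liesOver P 𝔭 h𝔭 h𝔭0⟩
  have hP0 : P ≠ ⊥ := by
    rintro rfl
    apply h𝔭0
    rw [← hP𝔭, Ideal.comap_bot_of_injective]
    exact FaithfulSMul.algebraMap_injective _ _
  have : 𝔭.IsMaximal := Ideal.IsPrime.isMaximal ‹_› h𝔭0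
  have : P.IsMaximal := Ideal.IsPrime.isMaximal ‹_› hP0
  have : Finite (𝓞 K ⧸ 𝔭) := Ideal.finiteQuotientOfFreeOfNeBot _ h𝔭0
  have : Finite (𝓞 L ⧸ P) := Ideal.finiteQuotientOfFreeOfNeBot _ hP0
  let : Field (𝓞 K ⧸ 𝔭) := Ideal.Quotient.field 𝔭
  let : Field (𝓞 L ⧸ P) := Ideal.Quotient.field P
  let : Fintype (𝓞 K ⧸ 𝔭) := Fintype.ofFinite _
  have hcard : Fintype.card (𝓞 K ⧸ 𝔭) = Ideal.absNorm 𝔭 := by
    rw [Ideal.absNorm_apply, Submodule.cardQuot_apply, Nat.card_eq_fintype_card]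
  rw [Ideal.inertiaDeg'_algebraMap 𝔭 P]
  rw [← FiniteField.orderOf_frobeniusAlgHom (𝓞 K ⧸ 𝔭) (𝓞 L ⧸ P)]
  apply orderOf_dvd_of_pow_eq_one
  have key : ∀ (k : ℕ) (x : 𝓞 L), ∀ y : 𝓞 L, (y : L) = (τ ^ k) x →
      y - x ^ (Ideal.absNorm 𝔭) ^ k ∈ P := by
    intro k
    induction k with
    | zero =>
      intro x y hy
      have : y = x := RingOfIntegers.ext (by rw [hy]; simp)
      simp [this]
    | succ k ih =>
      intro x y hy
      have h1 := ih x ((τ ^ k) • x) rfl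
      have h2 := hfr ((τ ^ k) • x) y (by rw [hy, pow_succ']; rfl)
      have h3 : y - x ^ (Ideal.absNorm 𝔭) ^ (k + 1) =
          (y - ((τ ^ k) • x) ^ (Ideal.absNorm 𝔭)) +
          (((τ ^ k) • x) ^ (Ideal.absNorm 𝔭) - (x ^ (Ideal.absNorm 𝔭) ^ k) ^ (Ideal.absNorm 𝔭)) := by
        rw [← pow_mul, ← pow_succ]
        ring
      rw [h3]
      refine add_mem h2 (Ideal.mem_of_dvd _ (sub_dvd_pow_sub_pow _ _ _) h1)
  apply AlgHom.ext
  intro z
  obtain ⟨x, rfl⟩ := Ideal.Quotient.mk_surjective z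
  rw [AlgHom.coe_pow, FiniteField.coe_frobeniusAlgHom, pow_iterate, AlgHom.one_apply, hcard]
  have h1 := (Ideal.Quotient.eq (I := P)).mpr (key (orderOf τ) x x (by rw [pow_orderOf_eq_one]; rfl))
  rw [map_pow] at h1
  exact h1.symm

end

end

end Vale.Agent.P022.H691
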