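import Vale.Agent.P022.H691.Sgn

/-! Block (a3): the local index with signs. -/

namespace Vale.Agent.P022.H691

open NumberField IsDedekindDomain Vale.Agent.P022.CFT
open Vale.Agent.P024.M3 (VS Unr dd nn)
open NumberField.InfinitePlace (IsRamified IsReal IsComplex comap)

noncomputable section

set_option linter.unusedSectionVars false

section norm

variable {K L : Type} [Field K] [NumberField K] [Field L] [NumberField L] [Algebra K L]

/-- Norms are positive at the real places which ramify. -/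
theorem norm_pos [IsGalois K L] {w : InfinitePlace L} (hw : IsRamified K w) (φ : K →+* ℝ)
    (hφ : w.comap (algebraMap K L) = rp φ) (x : Lˣ) : 0 < φ (Algebra.norm K (x : L)) := by
  classical
  have hφr : ComplexEmbedding.IsReal (Complex.ofRealHom.comp φ) := by
    ext y
    simp
  have hcomp : w.embedding.comp (algebraMap K L) = Complex.ofRealHom.comp φ := by
    rw [← hw.comap_embedding, hφ, rp, InfinitePlace.embedding_mk_eq_of_isReal hφr]
  obtain ⟨τ, hτ⟩ := InfinitePlace.exists_isConj_of_isRamified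
    (φ := w.embedding) (by rwa [InfinitePlace.mk_embedding])
  have hτ1 : τ ≠ 1 := by
    rw [ComplexEmbedding.isConj_ne_one_iff hτ]
    exact InfinitePlace.isComplex_iff.mp hw.isComplex
  set f : (L ≃ₐ[K] L) → ℂ := fun g => w.embedding (g x) with hf
  have hf0 : ∀ g, f g ≠ 0 := fun g => by
    rw [hf]
    simp
  have hfτ : ∀ g, f (τ * g) = star (f g) := fun g => hτ.eq (g x)
  have hn0 : ∀ g, ((‖f g‖ : ℝ) : ℂ) ≠ 0 := fun g => by
    rw [Complex.ofReal_ne_zero]
    exact norm_ne_zero_iff.mpr (hf0 g)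
  have hprod : ∏ g : L ≃ₐ[K] L, f g / (‖f g‖ : ℝ) = 1 := by
    refine Finset.prod_involution (fun g _ => τ * g) ?_ ?_ ?_ ?_
    · intro g _
      have h1 : f g * star (f g) = ((‖f g‖ : ℝ) : ℂ) * ((‖f g‖ : ℝ) : ℂ) := by
        rw [← Complex.ofReal_mul, ← sq]
        exact Complex.mul_conj' (f g) ▸ by simp
      rw [hfτ, norm_star, div_mul_div_comm, h1, div_self (mul_ne_zero (hn0 g) (hn0 g))]
    · intro g _ _ h
      exact hτ1 (mul_eq_right.mp h)
    · intro g _
      exact Finset.mem_univ _
    · intro g _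
      apply AlgEquiv.ext
      intro y
      exact ComplexEmbedding.isConj_apply_apply hτ (g y)
  have hN : w.embedding (algebraMap K L (Algebra.norm K (x : L))) = ∏ g : L ≃ₐ[K] L, f g := by
    rw [Algebra.norm_eq_prod_automorphisms, map_prod]
  have h1 : w.embedding (algebraMap K L (Algebra.norm K (x : L))) =
      ((φ (Algebra.norm K (x : L)) : ℝ) : ℂ) := RingHom.congr_fun hcomp _
  rw [Finset.prod_div_distrib, div_eq_one_iff_eq (Finset.prod_ne_zero_iff.mpr fun g _ => hn0 g),
    ← hN, h1, ← Complex.ofReal_prod, Complex.ofReal_inj] at hprod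
  rw [hprod]
  exact Finset.prod_pos fun g _ => norm_pos_iff.mpr (hf0 g)

/-- The orbits of ramified places. -/
def RO (K L : Type) [Field K] [NumberField K] [Field L] [NumberField L] [Algebra K L] : Type :=
  {ω : MulAction.orbitRel.Quotient (L ≃ₐ[K] L) (InfinitePlace L) // IsRamified K ω.out}

instance : Finite (MulAction.orbitRel.Quotient (L ≃ₐ[K] L) (InfinitePlace L)) :=
  Quotient.finite _

instance : Finite (RO K L) := inferInstanceAs (Finite (Subtype _))

theorem dinf_eq [IsGalois K L] : dinf K L = 2 ^ Nat.card (RO K L) := by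
  classical
  have := Fintype.ofFinite (MulAction.orbitRel.Quotient (L ≃ₐ[K] L) (InfinitePlace L))
  rw [dinf, stabProd, finprod_eq_prod_of_fintype]
  have h1 : ∀ ω : MulAction.orbitRel.Quotient (L ≃ₐ[K] L) (InfinitePlace L),
      Nat.card (MulAction.stabilizer (L ≃ₐ[K] L) ω.out) =
        if IsRamified K ω.out then 2 else 1 := by
    intro ω
    by_cases h : IsRamified K ω.out
    · rw [if_pos h, ← InfinitePlace.isRamified_iff_card_stabilizer_eq_two]
      exact h
    · rw [if_neg h, ← InfinitePlace.isUnramified_iff_card_stabilizer_eq_one]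
      exact (InfinitePlace.isUnramified_or_isRamified (k := K) (w := ω.out)).resolve_right h
  rw [Finset.prod_congr rfl fun ω _ => h1 ω, Finset.prod_ite, Finset.prod_const_one, mul_one,
    Finset.prod_const, RO, Nat.card_eq_fintype_card, Fintype.card_subtype]

/-- The real embedding below a ramified orbit. -/
def ore (ω : RO K L) : K →+* ℝ := InfinitePlace.embedding_of_isReal ω.2.isReal

theorem rp_ore (ω : RO K L) : rp (ore ω) = ω.1.out.comap (algebraMap K L) := by
  apply InfinitePlace.ext
  intro x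
  rw [rp_apply]
  exact InfinitePlace.norm_embedding_of_isReal ω.2.isReal x

theorem ore_injective [IsGalois K L] : Function.Injective (ore (K := K) (L := L)) := by
  intro ω ω' h
  have h1 : ω.1.out.comap (algebraMap K L) = ω'.1.out.comap (algebraMap K L) := by
    rw [← rp_ore, ← rp_ore, h]
  apply Subtype.ext
  rw [← Quotient.out_eq' ω.1, ← Quotient.out_eq' ω'.1]
  apply Quotient.sound'
  rw [MulAction.orbitRel_apply, InfinitePlace.mem_orbit_iff]
  exact h1.symm

end norm

section transfer

variable {K L : Type} [Field K] [NumberField K] [Field L] [NumberField L] [Algebra K L]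

variable (K L) in
/-- The inclusion `Kˣ → Lˣ`. -/
abbrev io : Kˣ →* Lˣ := Units.map (algebraMap K L : K →* L)

theorem io_injective : Function.Injective (io K L) := by
  intro x y h
  exact Units.ext ((algebraMap K L).injective (congrArg (fun z : Lˣ => (z : L)) h))

theorem natCast_mem_iff {m : ℕ} {v : HeightOneSpectrum (𝓞 K)} {w : HeightOneSpectrum (𝓞 L)}
    (h : w.asIdeal.LiesOver v.asIdeal) : (m : 𝓞 K) ∈ v.asIdeal ↔ (m : 𝓞 L) ∈ w.asIdeal := by
  rw [h.over, Ideal.mem_comap, map_natCast]

theorem io_mem_VS {m k : ℕ} (x : Kˣ) : io K L x ∈ VS L m k ↔ x ∈ VS K m k := by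
  have key : ∀ (v : HeightOneSpectrum (𝓞 K)) (w : HeightOneSpectrum (𝓞 L)),
      w.asIdeal.LiesOver v.asIdeal →
      ((w.valuation L ((io K L x : Lˣ) : L) = 1 ∧
        w.valuation L (((io K L x : Lˣ) : L) - 1) ≤ w.valuation L ((m : L) ^ k)) ↔
      (v.valuation K (x : K) = 1 ∧
        v.valuation K ((x : K) - 1) ≤ v.valuation K ((m : K) ^ k))) := by
    intro v w h
    have he : v.asIdeal.ramificationIdx' w.asIdeal ≠ 0 :=
      Ideal.IsDedekindDomain.ramificationIdx'_ne_zero_of_liesOver w.asIdeal v.ne_bot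
    have h1 := fun y : K => HeightOneSpectrum.valuation_liesOver L v w y
    have h2 : ((io K L x : Lˣ) : L) = algebraMap K L (x : K) := rfl
    have h3 : ((io K L x : Lˣ) : L) - 1 = algebraMap K L ((x : K) - 1) := by
      rw [h2, map_sub, map_one]
    have h4 : ((m : L) ^ k) = algebraMap K L ((m : K) ^ k) := by simp
    rw [h3, h4, h2, ← h1, ← h1, ← h1]
    refine and_congr ?_ ?_
    · constructor
      · intro h5
        exact (pow_eq_one_iff_of_nonneg zero_le he).mp h5
      · intro h5
        rw [h5, one_pow]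
    · exact pow_le_pow_iff_left₀ zero_le zero_le he
  constructor
  · intro hx v hv
    obtain ⟨w, hw⟩ := Vale.Agent.P024.H539.exists_over L v
    exact (key v w hw).mp (hx w ((natCast_mem_iff hw).mp hv))
  · intro hx w hw
    obtain ⟨v, hv⟩ := Vale.Agent.P024.H539.exists_under K w
    exact (key v w hv).mpr (hx v ((natCast_mem_iff hv).mpr hw))

theorem nn_eq (x : Lˣ) [IsGalois K L] :
    nn K L x = io K L (Units.map (Algebra.norm K : L →* K) x) := by
  apply Units.ext
  have h1 : ((io K L (Units.map (Algebra.norm K : L →* K) x) : Lˣ) : L) =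
      algebraMap K L (Algebra.norm K (x : L)) := rfl
  rw [h1, Algebra.norm_eq_prod_automorphisms]
  have h2 : ((nn K L x : Lˣ) : L) = ((∏ τ : L ≃ₐ[K] L, Units.map (τ : L →* L) x : Lˣ) : L) := rfl
  rw [h2, Units.coe_prod]
  exact Finset.prod_congr rfl fun _ _ => rfl

theorem transfer [IsGalois K L] {σ : L ≃ₐ[K] L} (hσ : ∀ τ, τ ∈ Subgroup.zpowers σ) (m k : ℕ) :
    ((VS L m k ⊓ (dd σ).ker) ⊔ (nn K L).range).relIndex (dd σ).ker =
      (VS K m k ⊔ NK K L).index := by
  have h1 : (dd σ).ker = (⊤ : Subgroup Kˣ).map (io K L) := by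
    rw [Vale.Agent.P024.H539.ker_dd hσ, Vale.Agent.P024.H539.FU, MonoidHom.range_eq_map]
  have h2 : (nn K L).range = (NK K L).map (io K L) := by
    rw [NK, MonoidHom.map_range]
    congr 1
    ext1 x
    exact nn_eq x
  have h3 : VS L m k ⊓ (⊤ : Subgroup Kˣ).map (io K L) = (VS K m k).map (io K L) := by
    ext x
    constructor
    · rintro ⟨hx, y, -, rfl⟩
      exact ⟨y, (io_mem_VS y).mp hx, rfl⟩
    · rintro ⟨y, hy, rfl⟩
      exact ⟨(io_mem_VS y).mpr hy, y, trivial, rfl⟩
  rw [h1, h2, h3, ← Subgroup.map_sup, Subgroup.relIndex_map_map_of_injective _ _ io_injective,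
    Subgroup.relIndex_top_right]

end transfer

theorem index_aux {G ι : Type*} [CommGroup G] [Finite ι] (A B : Subgroup G) (s : ι → G →* ℤˣ)
    (hA : A.index ≠ 0) (hAB : A ≤ B) (hAs : ∀ x ∈ A, ∀ i, s i x = 1)
    (hs : ∀ ε : ι → ℤˣ, ∃ x ∈ B, ∀ i, s i x = ε i) : B.index * 2 ^ Nat.card ι ≤ A.index := by
  let S : G →* (ι → ℤˣ) := MonoidHom.pi s
  have h1 : A ≤ B ⊓ S.ker := le_inf hAB fun x hx => MonoidHom.mem_ker.mpr (funext (hAs x hx))
  have h2 : B.map S = ⊤ := by
    rw [eq_top_iff]
    rintro ε -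
    obtain ⟨x, hx, hxs⟩ := hs ε
    exact ⟨x, hx, funext hxs⟩
  have h3 : (B ⊓ S.ker).index = 2 ^ Nat.card ι * B.index := by
    rw [← Subgroup.relIndex_mul_index (inf_le_left : B ⊓ S.ker ≤ B), Subgroup.inf_relIndex_left,
      Subgroup.relIndex_ker, h2, Subgroup.card_top, Nat.card_fun, Nat.card_eq_fintype_card (α := ℤˣ),
      Fintype.card_units_int]
  rw [mul_comm, ← h3]
  exact Nat.le_of_dvd (Nat.pos_of_ne_zero hA) (Subgroup.index_dvd_of_le h1)

/-- **(a3)** from (a2). -/
theorem propLocInf_of_propLoc (H : PropLoc) : PropLocInf := by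
  classical
  intro K L _ _ _ _ _ _ σ hσ m hm
  obtain ⟨k, hk, hfin, hle⟩ := H K L σ hσ m hm
  rw [transfer hσ] at hfin hle
  have hAfin : ((VS K m k ⊓ TP K) ⊔ NK K L).index ≠ 0 := by
    set A := (VS K m k ⊓ TP K) ⊔ NK K L with hA
    have h1 : A ≤ VS K m k ⊔ NK K L := sup_le_sup_right inf_le_left _
    have hTP : (TP K).index ≠ 0 := by
      have h2 : TP K = (MonoidHom.pi fun φ : K →+* ℝ => sg φ).ker := by
        ext x
        rw [mem_TP_iff, MonoidHom.mem_ker]
        exact ⟨fun h => funext h, fun h φ => congrFun h φ⟩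
      rw [h2]
      exact (Subgroup.finiteIndex_ker _).index_ne_zero
    have h3 : A.relIndex (VS K m k ⊔ NK K L) ≠ 0 := by
      have h4 : VS K m k ⊔ NK K L = VS K m k ⊔ A := by
        apply le_antisymm
        · exact sup_le le_sup_left (le_sup_of_le_right le_sup_right)
        · exact sup_le le_sup_left h1
      rw [h4, Subgroup.relIndex_sup_right]
      have h5 : (VS K m k ⊓ TP K).relIndex (VS K m k) ≠ 0 := by
        rw [inf_comm, Subgroup.inf_relIndex_right]
        intro h0
        exact hTP (Subgroup.index_eq_zero_of_relIndex_eq_zero h0)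
      intro h0
      have h6 := Subgroup.relIndex_dvd_of_le_left (VS K m k) (le_sup_left : VS K m k ⊓ TP K ≤ A)
      rw [h0, zero_dvd_iff] at h6
      exact h5 h6
    rw [← Subgroup.relIndex_mul_index h1]
    exact mul_ne_zero h3 hfin
  refine ⟨k, hk, hAfin, ?_⟩
  · -- the lower bound
    set A := (VS K m k ⊓ TP K) ⊔ NK K L with hA
    set B := VS K m k ⊔ NK K L with hB
    have hA0 : A.index ≠ 0 := hAfin
    have hAB : A ≤ B := sup_le_sup_right inf_le_left _
    have hAs : ∀ x ∈ A, ∀ ω : RO K L, sg (ore ω) x = 1 := by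
      intro x hx ω
      have h1 : A ≤ (sg (ore ω)).ker := by
        rw [hA, sup_le_iff]
        constructor
        · rintro y ⟨-, hy⟩
          exact (mem_TP_iff y).mp hy _
        · rintro _ ⟨y, rfl⟩
          exact (sg_eq_one _ _).mpr (norm_pos ω.2 (ore ω) (rp_ore ω).symm y)
      exact h1 hx
    have hs : ∀ ε : RO K L → ℤˣ, ∃ x ∈ B, ∀ ω, sg (ore ω) x = ε ω := by
      intro ε
      let ε' : (K →+* ℝ) → ℤˣ := fun φ =>
        if h : ∃ ω : RO K L, ore ω = φ then ε h.choose else 1
      have hε' : ∀ ω, ε' (ore ω) = ε ω := by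
        intro ω
        have h : ∃ ω' : RO K L, ore ω' = ore ω := ⟨ω, rfl⟩
        show (if h : ∃ ω' : RO K L, ore ω' = ore ω then ε h.choose else 1) = _
        rw [dif_pos h, ore_injective h.choose_spec]
      obtain ⟨x, hx, hxs⟩ := exists_VS_signs (K := K) hm hk ε'
      exact ⟨x, Subgroup.mem_sup_left hx, fun ω => by rw [hxs, hε']⟩
    have h2 := index_aux A B (fun ω : RO K L => sg (ore ω)) hA0 hAB hAs hs
    rw [dinf_eq, mul_comm]
    exact (Nat.mul_le_mul_right _ hle).trans h2

end

end Vale.Agent.P022.H691
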