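import Vale.Agent.P022.H116.Spec

/-! Block (REM): removing the auxiliary primes from a modulus. -/

namespace Vale.Agent.P022.H691

open NumberField IsDedekindDomain UniqueFactorizationMonoid Vale.Agent.P022.CFT

noncomputable section

theorem exists_primeTo (R : ℕ) (M : ℕ) (hM : 0 < M) :
    ∃ a B : ℕ, M ∣ R ^ a * B ∧ Nat.Coprime B R ∧ B ∣ M := by
  induction M using Nat.strong_induction_on with
  | _ M ih =>
    by_cases hc : Nat.Coprime M R
    · exact ⟨0, M, by simp, hc, dvd_rfl⟩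
    · set d := Nat.gcd M R with hd
      have hd0 : 0 < d := Nat.gcd_pos_of_pos_left _ hM
      have hd1 : 1 < d := lt_of_le_of_ne hd0 (Ne.symm hc)
      obtain ⟨M', hM'⟩ := Nat.gcd_dvd_left M R
      have hM'0 : 0 < M' := by
        rcases Nat.eq_zero_or_pos M' with h | h
        · rw [h, mul_zero] at hM'; omega
        · exact h
      have hlt : M' < M := by
        rw [hM']
        exact (Nat.lt_mul_iff_one_lt_left hM'0).mpr hd1
      obtain ⟨a, B, h1, h2, h3⟩ := ih M' hlt hM'0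
      refine ⟨a + 1, B, ?_, h2, h3.trans ?_⟩
      · rw [hM', pow_succ', mul_assoc]
        exact mul_dvd_mul (Nat.gcd_dvd_right M R) h1
      · exact ⟨_, by rw [mul_comm]; exact hM'⟩

section

variable {K : Type} [Field K] [NumberField K] {A : Type*} [CommGroup A]

theorem evI_mul (Y : Ideal (𝓞 K) → A) {I J : Ideal (𝓞 K)} (hI : I ≠ ⊥) (hJ : J ≠ ⊥) :
    evI Y (I * J) = evI Y I * evI Y J := by
  unfold evI
  rw [normalizedFactors_mul hI hJ, Multiset.map_add, Multiset.prod_add]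

theorem evI_span_mul (Y : Ideal (𝓞 K) → A) {x y : 𝓞 K} (hx : x ≠ 0) (hy : y ≠ 0) :
    evI Y (Ideal.span {x * y}) = evI Y (Ideal.span {x}) * evI Y (Ideal.span {y}) := by
  rw [← Ideal.span_singleton_mul_span_singleton, evI_mul]
  · rwa [Ne, Ideal.span_singleton_eq_bot]
  · rwa [Ne, Ideal.span_singleton_eq_bot]

/-- Totally positive representatives. -/
theorem exists_totpos (x : 𝓞 K) (n : ℕ) (hn : 0 < n) :
    ∃ t : ℕ, x + (n : 𝓞 K) * t ≠ 0 ∧ ∀ φ : K →+* ℝ, 0 < φ ((x + (n : 𝓞 K) * t : 𝓞 K) : K) := by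
  classical
  have : Finite (K →+* ℝ) := inferInstance
  have := Fintype.ofFinite (K →+* ℝ)
  obtain ⟨t, ht⟩ := exists_nat_gt (∑ φ : K →+* ℝ, |φ (x : K)|)
  have key : ∀ t' : ℕ, t ≤ t' → ∀ φ : K →+* ℝ, 0 < φ ((x + (n : 𝓞 K) * t' : 𝓞 K) : K) := by
    intro t' htt φ
    have h1 : |φ (x : K)| ≤ ∑ φ : K →+* ℝ, |φ (x : K)| :=
      Finset.single_le_sum (f := fun φ : K →+* ℝ => |φ (x : K)|) (fun _ _ => abs_nonneg _)
        (Finset.mem_univ φ)
    have h2 : -|φ (x : K)| ≤ φ (x : K) := neg_abs_le _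
    have h3 : (1 : ℝ) ≤ n := by exact_mod_cast hn
    have h5 : (t : ℝ) ≤ t' := by exact_mod_cast htt
    have h4 : φ ((x + (n : 𝓞 K) * t' : 𝓞 K) : K) = φ (x : K) + n * t' := by
      simp
    rw [h4]
    nlinarith
  by_cases h0 : x + (n : 𝓞 K) * t = 0
  · refine ⟨t + 1, ?_, key _ (by omega)⟩
    intro h1
    have h2 : (n : 𝓞 K) = 0 := by
      push_cast at h1
      linear_combination h1 - h0
    exact hn.ne' (by exact_mod_cast h2)
  · exact ⟨t, h0, key _ le_rfl⟩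

theorem isRC_apply {M : ℕ} {Y : Ideal (𝓞 K) → A} (h : IsRC M Y) {x : 𝓞 K} (hx : x ≠ 0)
    (hxM : (M : 𝓞 K) ∣ x - 1) (hpos : ∀ φ : K →+* ℝ, 0 < φ (x : K)) :
    evI Y (Ideal.span {x}) = 1 :=
  h x hx (by rw [idl, Ideal.mem_span_singleton]; exact_mod_cast hxM) hpos

omit [NumberField K] in
theorem isCoprime_of_prime {x : 𝓞 K} : ∀ M : ℕ, 0 < M →
    (∀ p : ℕ, p.Prime → p ∣ M → IsCoprime x (p : 𝓞 K)) → IsCoprime x (M : 𝓞 K) := by
  intro M
  induction M using Nat.recOnMul with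
  | zero => intro h; omega
  | one => intro _ _; rw [Nat.cast_one]; exact isCoprime_one_right
  | prime p hp => intro _ h; exact h p hp dvd_rfl
  | mul a b iha ihb =>
    intro hab h
    rw [Nat.cast_mul]
    refine IsCoprime.mul_right (iha (Nat.pos_of_mul_pos_right hab) ?_)
      (ihb (Nat.pos_of_mul_pos_left hab) ?_)
    · exact fun p hp hpa => h p hp (hpa.mul_right _)
    · exact fun p hp hpb => h p hp (hpb.mul_left _)

/-- **(REM)** -/
theorem rem_statement : REM_statement := by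
  classical
  intro K _ _ A _ Y R hR H
  obtain ⟨M₀, hM₀, -, hM₀Y⟩ := H ∅ (by simp)
  obtain ⟨a, B, hMB, hBR, hBM⟩ := exists_primeTo R M₀ hM₀
  have hB0 : 0 < B := Nat.pos_of_dvd_of_pos hBM hM₀
  refine ⟨a + 1, fun α hα0 hα1 hαpos => ?_⟩
  have hα1' : ((R ^ (a + 1) : ℕ) : 𝓞 K) ∣ α - 1 := by
    rw [idl, Ideal.mem_span_singleton] at hα1
    exact_mod_cast hα1
  set n := Ideal.absNorm (Ideal.span {α}) with hn
  have hαn : α ∣ (n : 𝓞 K) := Ideal.mem_span_singleton.mp (Ideal.absNorm_mem _)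
  have hn0 : n ≠ 0 := by
    rw [hn, Ne, Ideal.absNorm_eq_zero_iff, Ideal.span_singleton_eq_bot]
    exact hα0
  have hnB : n * B ≠ 0 := mul_ne_zero hn0 hB0.ne'
  obtain ⟨M, hM, hMT, hMY⟩ := H ((n * B).primeFactors.filter fun p => ¬ p ∣ R) (by
    intro p hp
    rw [Finset.mem_filter, Nat.mem_primeFactors] at hp
    exact ⟨hp.1.1, hp.2⟩)
  have hMT' : ∀ p : ℕ, p.Prime → p ∣ M → ¬ p ∣ R → ¬ p ∣ n ∧ ¬ p ∣ B := by
    intro p hp hpM hpR
    have h1 : ¬ p ∣ n * B := by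
      intro h
      exact hMT p (by rw [Finset.mem_filter, Nat.mem_primeFactors]; exact ⟨⟨hp, h, hnB⟩, hpR⟩) hpM
    exact ⟨fun h => h1 (h.mul_right _), fun h => h1 (h.mul_left _)⟩
  -- `α` is prime to `M`
  have hαM : IsCoprime α (M : 𝓞 K) := by
    refine isCoprime_of_prime M hM fun p hp hpM => ?_
    by_cases hpR : p ∣ R
    · have h1 : (p : 𝓞 K) ∣ α - 1 := by
        refine dvd_trans ?_ hα1'
        exact_mod_cast Nat.cast_dvd_cast (α := 𝓞 K) (hpR.trans (dvd_pow_self R (by omega)))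
      obtain ⟨c, hc⟩ := h1
      exact ⟨1, -c, by linear_combination hc⟩
    · have h1 := (hMT' p hp hpM hpR).1
      have h2 : IsCoprime (n : ℤ) (p : ℤ) := by
        rw [Nat.isCoprime_iff_coprime, Nat.coprime_comm]
        exact (Nat.Prime.coprime_iff_not_dvd hp).mpr h1
      have h3 : IsCoprime (n : 𝓞 K) (p : 𝓞 K) := by
        have := h2.map (Int.castRingHom (𝓞 K))
        simpa using this
      exact h3.of_isCoprime_of_dvd_left hαn
  -- `M R^(a+1)` is prime to `B`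
  have hcop : Nat.Coprime (M * R ^ (a + 1)) B := by
    refine Nat.Coprime.mul_left ?_ (Nat.Coprime.pow_left _ hBR.symm)
    refine Nat.coprime_of_dvd fun p hp hpM hpB => ?_
    by_cases hpR : p ∣ R
    · exact hp.one_lt.ne' (Nat.dvd_one.mp (hBR ▸ Nat.dvd_gcd hpB hpR))
    · exact (hMT' p hp hpM hpR).2 hpB
  obtain ⟨u, v, huv⟩ := (Nat.isCoprime_iff_coprime.mpr hcop)
  have huv' : (u : 𝓞 K) * (M * R ^ (a + 1)) + v * B = 1 := by
    have := congrArg (Int.cast : ℤ → 𝓞 K) huv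
    push_cast at this
    exact this
  obtain ⟨d, hd⟩ := hα1'
  push_cast at hd
  obtain ⟨s, t, hst⟩ := hαM
  -- the elements `β` and `γ`
  obtain ⟨t₁, hβ0, hβpos⟩ := exists_totpos
    (α * ((v : 𝓞 K) * (B : 𝓞 K)) + (u : 𝓞 K) * ((M : 𝓞 K) * (R : 𝓞 K) ^ (a + 1)))
    (M * (R ^ (a + 1) * B)) (by positivity)
  set β : 𝓞 K := α * ((v : 𝓞 K) * B) + u * (M * R ^ (a + 1)) +
    ((M * (R ^ (a + 1) * B) : ℕ) : 𝓞 K) * t₁ with hβ
  obtain ⟨t₂, hγ0, hγpos⟩ := exists_totpos s M hM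
  set γ : 𝓞 K := s + (M : 𝓞 K) * t₂ with hγ
  push_cast at hβ
  have hβ1 : (M₀ : 𝓞 K) ∣ β - 1 := by
    have h1 : (M₀ : 𝓞 K) ∣ ((R ^ (a + 1) * B : ℕ) : 𝓞 K) := by
      refine Nat.cast_dvd_cast (hMB.trans ?_)
      exact mul_dvd_mul (pow_dvd_pow _ (by omega)) dvd_rfl
    refine h1.trans ⟨v * d + M * t₁, ?_⟩
    push_cast
    rw [hβ]
    linear_combination (v * B : 𝓞 K) * hd + huv'
  have hαβ : (M : 𝓞 K) ∣ β - α := by
    refine ⟨u * R ^ (a + 1) * (1 - α) + R ^ (a + 1) * B * t₁, ?_⟩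
    rw [hβ]
    linear_combination α * huv'
  have hαγ : (M : 𝓞 K) ∣ α * γ - 1 := by
    refine ⟨α * t₂ - t, ?_⟩
    rw [hγ]
    linear_combination hst
  have hβγ : (M : 𝓞 K) ∣ β * γ - 1 := by
    obtain ⟨c, hc⟩ := hαγ
    obtain ⟨c', hc'⟩ := hαβ
    exact ⟨γ * c' + c, by linear_combination γ * hc' + hc⟩
  have e1 := isRC_apply hM₀Y hβ0 hβ1 hβpos
  have e2 := isRC_apply hMY (mul_ne_zero hα0 hγ0) hαγ (fun φ => by
    have h := mul_pos (hαpos φ) (hγpos φ)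
    rwa [← map_mul, ← map_mul] at h)
  have e3 := isRC_apply hMY (mul_ne_zero hβ0 hγ0) hβγ (fun φ => by
    have h := mul_pos (hβpos φ) (hγpos φ)
    rwa [← map_mul, ← map_mul] at h)
  rw [evI_span_mul Y hα0 hγ0] at e2
  rw [evI_span_mul Y hβ0 hγ0, e1, one_mul] at e3
  rw [e3, mul_one] at e2
  exact e2

end

end

end Vale.Agent.P022.H691
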