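import Vale.Agent.P022.H116.Spec
import Vale.Agent.P024.H539.PropA
import Vale.Agent.P024.H409.Sem

/-! Signs at the real places, and weak approximation. -/

namespace Vale.Agent.P022.H691

open NumberField IsDedekindDomain Vale.Agent.P022.CFT
open Vale.Agent.P024.M3 (VS Unr dd nn)

noncomputable section

section signs

set_option linter.unusedSectionVars false

variable {K : Type} [Field K] [NumberField K]

/-- The infinite place of a real embedding. -/
def rp (φ : K →+* ℝ) : InfinitePlace K := InfinitePlace.mk (Complex.ofRealHom.comp φ)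

theorem rp_apply (φ : K →+* ℝ) (x : K) : rp φ x = |φ x| := by
  rw [rp, InfinitePlace.apply]
  simp

theorem rp_injective : Function.Injective (rp (K := K)) := by
  intro φ ψ h
  rw [rp, rp, InfinitePlace.mk_eq_iff] at h
  ext x
  rcases h with h | h
  · have := RingHom.congr_fun h x
    simpa using this
  · have := RingHom.congr_fun h x
    simpa using this

/-- Elements with given signs. -/
theorem exists_signs (ε : (K →+* ℝ) → ℤˣ) :
    ∃ x : K, ∀ φ : K →+* ℝ, 0 < ((ε φ : ℤ) : ℝ) * φ x := by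
  classical
  let z : (v : InfinitePlace K) → WithAbs v.1 := fun v =>
    WithAbs.toAbs v.1 (if h : ∃ φ : K →+* ℝ, rp φ = v then ((ε h.choose : ℤ) : K) else 0)
  obtain ⟨x, hx⟩ := Metric.denseRange_iff.mp (InfinitePlace.denseRange_algebraMap_pi K) z 1
    one_pos
  refine ⟨x, fun φ => ?_⟩
  have h1 := (dist_pi_lt_iff one_pos).mp hx (rp φ)
  have h2 : z (rp φ) = WithAbs.toAbs (rp φ).1 ((ε φ : ℤ) : K) := by
    have h : ∃ ψ : K →+* ℝ, rp ψ = rp φ := ⟨φ, rfl⟩
    show WithAbs.toAbs (rp φ).1 (if h : ∃ ψ : K →+* ℝ, rp ψ = rp φ then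
      ((ε h.choose : ℤ) : K) else 0) = _
    rw [dif_pos h, rp_injective h.choose_spec]
  rw [h2] at h1
  have h3 : (algebraMap K ((v : InfinitePlace K) → WithAbs v.1)) x (rp φ) =
      WithAbs.toAbs (rp φ).1 x := rfl
  rw [h3, dist_eq_norm, ← WithAbs.toAbs_sub, WithAbs.norm_toAbs_eq] at h1
  have h4 : (rp φ).1 (((ε φ : ℤ) : K) - x) = |φ (((ε φ : ℤ) : K) - x)| := rp_apply φ _
  rw [h4, map_sub, map_intCast] at h1
  rcases Int.units_eq_one_or (ε φ) with h | h
  · rw [h] at h1 ⊢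
    push_cast at h1 ⊢
    rw [abs_lt] at h1
    linarith
  · rw [h] at h1 ⊢
    push_cast at h1 ⊢
    rw [abs_lt] at h1
    linarith

/-- The sign of a unit at a real embedding. -/
def sg (φ : K →+* ℝ) : Kˣ →* ℤˣ where
  toFun x := if 0 < φ (x : K) then 1 else -1
  map_one' := by simp
  map_mul' x y := by
    have hx : φ (x : K) ≠ 0 := by simp
    have hy : φ (y : K) ≠ 0 := by simp
    rw [Units.val_mul, map_mul]
    rcases lt_or_gt_of_ne hx with h1 | h1 <;> rcases lt_or_gt_of_ne hy with h2 | h2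
    · simp [h1.not_gt, h2.not_gt, mul_pos_of_neg_of_neg h1 h2]
    · simp [h1.not_gt, h2, (mul_neg_of_neg_of_pos h1 h2).not_gt]
    · simp [h1, h2.not_gt, (mul_neg_of_pos_of_neg h1 h2).not_gt]
    · simp [h1, h2, mul_pos h1 h2]

theorem sg_apply (φ : K →+* ℝ) (x : Kˣ) : sg φ x = if 0 < φ (x : K) then 1 else -1 := rfl

theorem sg_eq_one (φ : K →+* ℝ) (x : Kˣ) : sg φ x = 1 ↔ 0 < φ (x : K) := by
  classical
  rw [sg_apply]
  split_ifs with h
  · simp [h]
  · simp only [h, iff_false]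
    decide

theorem sg_eq (φ : K →+* ℝ) (x : Kˣ) (e : ℤˣ) : sg φ x = e ↔ 0 < ((e : ℤ) : ℝ) * φ (x : K) := by
  classical
  rcases Int.units_eq_one_or e with rfl | rfl
  · rw [sg_eq_one]; simp
  · have hx : φ (x : K) ≠ 0 := by simp
    rw [sg_apply]
    split_ifs with h
    · push_cast
      constructor
      · intro h'; exact absurd h' (by decide)
      · intro h'; linarith
    · push_cast
      simp only [true_iff]
      have : φ (x : K) < 0 := lt_of_le_of_ne (not_lt.mp h) hx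
      linarith

theorem mem_TP_iff (x : Kˣ) : x ∈ TP K ↔ ∀ φ : K →+* ℝ, sg φ x = 1 := by
  constructor
  · intro h φ; exact (sg_eq_one φ x).mpr (h φ)
  · intro h φ; exact (sg_eq_one φ x).mp (h φ)

/-- Elements congruent to one with given signs. -/
theorem exists_VS_signs {m k : ℕ} (hm : 0 < m) (hk : 1 ≤ k) (ε : (K →+* ℝ) → ℤˣ) :
    ∃ x : Kˣ, x ∈ VS K m k ∧ ∀ φ : K →+* ℝ, sg φ x = ε φ := by
  classical
  obtain ⟨x₀, hx₀⟩ := exists_signs ε
  obtain ⟨n, hn, hint⟩ := Vale.Agent.P024.H409.exists_int_mul x₀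
  let y : 𝓞 K := ⟨(n : K) * x₀, hint⟩
  have hy : (y : K) = (n : K) * x₀ := rfl
  have := Fintype.ofFinite (K →+* ℝ)
  have hφy : ∀ φ : K →+* ℝ, 0 < ((ε φ : ℤ) : ℝ) * φ (y : K) := by
    intro φ
    rw [hy, map_mul, map_natCast]
    have h1 : (0 : ℝ) < n := by exact_mod_cast Nat.pos_of_ne_zero hn
    have h2 := mul_pos h1 (hx₀ φ)
    linarith
  obtain ⟨t, ht⟩ := exists_nat_gt (∑ φ : K →+* ℝ, (((ε φ : ℤ) : ℝ) * φ (y : K))⁻¹)
  have hm1 : (1 : ℝ) ≤ (m : ℝ) ^ k := one_le_pow₀ (by exact_mod_cast hm)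
  have key : ∀ t' : ℕ, t ≤ t' → ∀ φ : K →+* ℝ,
      0 < ((ε φ : ℤ) : ℝ) * φ ((1 + (m : 𝓞 K) ^ k * (t' * y) : 𝓞 K) : K) := by
    intro t' htt φ
    have h1 : (((ε φ : ℤ) : ℝ) * φ (y : K))⁻¹ ≤ ∑ φ : K →+* ℝ, (((ε φ : ℤ) : ℝ) * φ (y : K))⁻¹ :=
      Finset.single_le_sum (f := fun φ : K →+* ℝ => (((ε φ : ℤ) : ℝ) * φ (y : K))⁻¹)
        (fun φ _ => inv_nonneg.mpr (hφy φ).le) (Finset.mem_univ φ)
    have h2 : (((ε φ : ℤ) : ℝ) * φ (y : K))⁻¹ < t' :=
      lt_of_le_of_lt h1 (ht.trans_le (by exact_mod_cast htt))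
    have h3 : 1 < t' * (((ε φ : ℤ) : ℝ) * φ (y : K)) := by
      rwa [inv_lt_iff_one_lt_mul₀ (hφy φ)] at h2
    have h4 : φ ((1 + (m : 𝓞 K) ^ k * (t' * y) : 𝓞 K) : K) = 1 + (m : ℝ) ^ k * (t' * φ (y : K)) := by
      simp
    rw [h4]
    have h5 : ((ε φ : ℤ) : ℝ) * (1 + (m : ℝ) ^ k * (t' * φ (y : K))) =
      ((ε φ : ℤ) : ℝ) + (m : ℝ) ^ k * (t' * (((ε φ : ℤ) : ℝ) * φ (y : K))) := by ring
    rw [h5]
    have h6 : (-1 : ℝ) ≤ ((ε φ : ℤ) : ℝ) := by
      rcases Int.units_eq_one_or (ε φ) with h | h <;> rw [h] <;> norm_num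
    nlinarith
  obtain ⟨t', htt, hne⟩ : ∃ t' : ℕ, t ≤ t' ∧ 1 + (m : 𝓞 K) ^ k * (t' * y) ≠ 0 := by
    by_cases h0 : 1 + (m : 𝓞 K) ^ k * (t * y) = 0
    · refine ⟨t + 1, by omega, fun h1 => ?_⟩
      push_cast at h1
      have h2 : (m : 𝓞 K) ^ k * y = 0 := by linear_combination h1 - h0
      have h3 : (1 : 𝓞 K) = 0 := by linear_combination h0 - t * h2
      exact one_ne_zero h3
    · exact ⟨t, le_rfl, h0⟩
  set z : 𝓞 K := 1 + (m : 𝓞 K) ^ k * (t' * y) with hz
  have hz0 : (z : K) ≠ 0 := by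
    intro h
    exact hne (RingOfIntegers.ext h)
  refine ⟨Units.mk0 (z : K) hz0, ?_, fun φ => ?_⟩
  · intro w hw
    have hzm : (z : K) - 1 = (m : K) ^ k * ((t' * y : 𝓞 K) : K) := by
      rw [hz]; simp
    have hle : w.valuation K ((z : K) - 1) ≤ w.valuation K ((m : K) ^ k) := by
      rw [hzm, map_mul]
      calc _ ≤ w.valuation K ((m : K) ^ k) * 1 := mul_le_mul_right (w.valuation_le_one _) _
        _ = _ := mul_one _
    have hm' : w.valuation K (m : K) < 1 := by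
      have h1 : ((m : 𝓞 K) : K) = (m : K) := by simp
      rw [← h1]
      exact (w.valuation_lt_one_iff_mem _).mpr hw
    have hlt : w.valuation K ((z : K) - 1) < 1 := by
      refine lt_of_le_of_lt hle ?_
      rw [map_pow]
      exact pow_lt_one₀ zero_le hm' (by omega)
    refine ⟨?_, hle⟩
    have h2 := Valuation.map_one_add_of_lt (v := w.valuation K) hlt
    rw [add_sub_cancel] at h2
    exact h2
  · rw [sg_eq]
    exact key t' htt φ

end signs

end

end Vale.Agent.P022.H691
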